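import Vale.Agent.H50.BinPack.Basic

/-!
The three-slot frame for bin packing (support for P302)

If every item of a bin packing instance is larger than `1/4`, then a bin holds at most three
items.  So a packing into `K` bins yields a family of disjoint triples of items (the bins with
exactly three items), each of total size at most `1`, and `n ≤ 2 K + t` where `t` is the number
of triples.  Items are elements of an arbitrary type `α` with a size map `size : α → ℚ`
(duplicates are allowed: `items` is a list).
-/

namespace Vale.Agent.H15.BP

open Vale.Agent.H50.BinPack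

/-- Pull a permutation back along a map. -/
theorem perm_map_pullback {α β : Type*} (f : α → β) {l1 l2 : List β} (h : l1.Perm l2) :
    ∀ items : List α, l2 = items.map f → ∃ l' : List α, l'.Perm items ∧ l'.map f = l1 := by
  induction h with
  | nil =>
    intro items h
    have h0 : items = [] := by simpa using h.symm
    exact ⟨[], by rw [h0], rfl⟩
  | cons x _ ih =>
    intro items h
    match items, h with
    | a :: items', h =>
      simp only [List.map_cons, List.cons.injEq] at h
      obtain ⟨l', hp, hm⟩ := ih items' h.2
      exact ⟨a :: l', hp.cons a, by simp [hm, h.1]⟩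
  | swap x y l =>
    intro items h
    match items, h with
    | a :: b :: items', h =>
      simp only [List.map_cons, List.cons.injEq] at h
      exact ⟨b :: a :: items', List.Perm.swap a b items', by simp [h.1, h.2.1, h.2.2]⟩
  | trans _ _ ih1 ih2 =>
    intro items h
    obtain ⟨l2', hp2, hm2⟩ := ih2 items h
    obtain ⟨l1', hp1, hm1⟩ := ih1 l2' hm2.symm
    exact ⟨l1', hp1.trans hp2, hm1⟩

/-- Cut a list along the bins of a flattened image. -/
theorem unflatten_map {α β : Type*} (f : α → β) : ∀ (bins : List (List β)) (l : List α),
    l.map f = bins.flatten →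
      ∃ bins' : List (List α), bins'.flatten = l ∧ bins'.map (List.map f) = bins := by
  intro bins
  induction bins with
  | nil =>
    intro l h
    have h0 : l = [] := by simpa using h
    exact ⟨[], by rw [h0]; rfl, rfl⟩
  | cons b rest ih =>
    intro l h
    rw [List.flatten_cons] at h
    obtain ⟨l1, l2, rfl, h1, h2⟩ := List.map_eq_append_iff.mp h
    obtain ⟨bins', hb, hm⟩ := ih l2 h2
    exact ⟨l1 :: bins', by simp [hb], by simp [h1, hm]⟩

theorem quarter_le_sum {α : Type*} (size : α → ℚ) : ∀ b : List α, (∀ a ∈ b, 1 / 4 < size a) →
    (b.length : ℚ) / 4 ≤ (b.map size).sum := by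
  intro b
  induction b with
  | nil => intro _; simp
  | cons a b ih =>
    intro h
    have h1 := h a (by simp)
    have h2 := ih (fun x hx => h x (by simp [hx]))
    simp only [List.length_cons, List.map_cons, List.sum_cons, Nat.cast_add, Nat.cast_one]
    linarith

theorem length_le_three {α : Type*} (size : α → ℚ) (b : List α) (h : ∀ a ∈ b, 1 / 4 < size a)
    (hs : (b.map size).sum ≤ 1) : b.length ≤ 3 := by
  match b, h, hs with
  | [], _, _ => simp
  | a :: b, h, hs =>
    have h1 := h a (by simp)
    have h2 := quarter_le_sum size b (fun x hx => h x (by simp [hx]))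
    simp only [List.map_cons, List.sum_cons] at hs
    have h3 : (b.length : ℚ) < 3 := by linarith
    have h4 : b.length < 3 := by exact_mod_cast h3
    simp only [List.length_cons]
    omega

theorem flatten_length_le {α : Type*} : ∀ bins : List (List α), (∀ b ∈ bins, b.length ≤ 3) →
    bins.flatten.length ≤ 2 * bins.length + (bins.filter (fun b => b.length = 3)).length := by
  intro bins
  induction bins with
  | nil => intro _; simp
  | cons b rest ih =>
    intro h
    have h1 := h b (by simp)
    have h2 := ih (fun x hx => h x (by simp [hx]))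
    by_cases hb : b.length = 3
    · simp only [List.flatten_cons, List.length_append, List.length_cons]
      rw [List.filter_cons_of_pos (by simpa using hb)]
      simp only [List.length_cons]
      omega
    · simp only [List.flatten_cons, List.length_append, List.length_cons]
      rw [List.filter_cons_of_neg (by simpa using hb)]
      omega

/-- **Frame lemma.**  If all items are larger than `1/4` and the instance is packable into `K`
bins, then there is a list of triples of items, jointly a sub-multiset of the items, each of
total size at most `1`, with `n ≤ 2 K + (number of triples)`. -/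
theorem frame {α : Type*} (size : α → ℚ) (items : List α)
    (hlo : ∀ a ∈ items, 1 / 4 < size a) (K : ℕ) (hp : Packable (items.map size) K) :
    ∃ triples : List (List α),
      ((triples.flatten : List α) : Multiset α) ≤ (items : Multiset α) ∧
      (∀ T ∈ triples, T.length = 3) ∧ (∀ T ∈ triples, (T.map size).sum ≤ 1) ∧
      items.length ≤ 2 * K + triples.length := by
  obtain ⟨bins, hlen, hperm, hsum⟩ := hp
  obtain ⟨l', hl'p, hl'm⟩ := perm_map_pullback size hperm items rfl
  obtain ⟨bins', hfl, hmap⟩ := unflatten_map size bins l' hl'm
  have hlen' : bins'.length = K := by rw [← hlen, ← hmap, List.length_map]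
  have hmem : ∀ b ∈ bins', ∀ a ∈ b, a ∈ items := by
    intro b hb a ha
    have : a ∈ bins'.flatten := List.mem_flatten.mpr ⟨b, hb, ha⟩
    rw [hfl] at this
    exact hl'p.subset this
  have hsum' : ∀ b ∈ bins', (b.map size).sum ≤ 1 := by
    intro b hb
    apply hsum
    rw [← hmap]
    exact List.mem_map_of_mem hb
  have hle3 : ∀ b ∈ bins', b.length ≤ 3 := fun b hb =>
    length_le_three size b (fun a ha => hlo a (hmem b hb a ha)) (hsum' b hb)
  refine ⟨bins'.filter (fun b => b.length = 3), ?_, ?_, ?_, ?_⟩
  · rw [Multiset.coe_le]
    have h1 : (bins'.filter (fun b => b.length = 3)).flatten.Sublist bins'.flatten :=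
      List.Sublist.flatten List.filter_sublist
    rw [hfl] at h1
    exact h1.subperm.trans hl'p.subperm
  · intro T hT
    simpa using (List.mem_filter.mp hT).2
  · intro T hT
    exact hsum' T (List.mem_filter.mp hT).1
  · have h1 := flatten_length_le bins' hle3
    rw [hfl, hlen', hl'p.length_eq] at h1
    exact h1

/-- If every family of disjoint fitting triples leaves at least `u` items uncovered, then the
instance cannot be packed into `K` bins as soon as `6 K < 2 n + u`. -/
theorem not_packable_of_triple_bound {α : Type*} (size : α → ℚ) (items : List α)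
    (hlo : ∀ a ∈ items, 1 / 4 < size a) (u : ℕ)
    (hT : ∀ triples : List (List α),
      ((triples.flatten : List α) : Multiset α) ≤ (items : Multiset α) →
      (∀ T ∈ triples, T.length = 3) → (∀ T ∈ triples, (T.map size).sum ≤ 1) →
      3 * triples.length + u ≤ items.length)
    (K : ℕ) (hK : 6 * K < 2 * items.length + u) : ¬ Packable (items.map size) K := by
  intro hp
  obtain ⟨triples, h1, h2, h3, h4⟩ := frame size items hlo K hp
  have h5 := hT triples h1 h2 h3
  omega

/-- The same conclusion for the optimum: `K < OPT`. -/
theorem lt_OPT_of_triple_bound {α : Type*} (size : α → ℚ) (items : List α)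
    (hlo : ∀ a ∈ items, 1 / 4 < size a) (hhi : ∀ a ∈ items, size a ≤ 1) (u : ℕ)
    (hT : ∀ triples : List (List α),
      ((triples.flatten : List α) : Multiset α) ≤ (items : Multiset α) →
      (∀ T ∈ triples, T.length = 3) → (∀ T ∈ triples, (T.map size).sum ≤ 1) →
      3 * triples.length + u ≤ items.length)
    (K : ℕ) (hK : 6 * K < 2 * items.length + u) : K < OPT (items.map size) := by
  have hne : Packable (items.map size) (items.map size).length :=
    packable_singletons _ (by
      intro v hv
      obtain ⟨a, ha, rfl⟩ := List.mem_map.mp hv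
      exact hhi a ha)
  have hmem : Packable (items.map size) (OPT (items.map size)) :=
    Nat.sInf_mem (s := {k : ℕ | Packable (items.map size) k}) ⟨_, hne⟩
  by_contra hcon
  rw [not_lt] at hcon
  exact not_packable_of_triple_bound size items hlo u hT K hK (hmem.mono hcon)

/-- Sizes near `1/3`: the item with integer deviation `x` has size `(D + x) / (3 D)`. -/
def devSize (D : ℤ) (x : ℤ) : ℚ := ((D + x : ℤ) : ℚ) / ((3 * D : ℤ) : ℚ)

theorem devSize_gt {D x : ℤ} (h : 4 * |x| < D) : 1 / 4 < devSize D x := by
  have hD : 0 < D := lt_of_le_of_lt (by positivity) h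
  have hx : -x ≤ |x| := neg_le_abs x
  unfold devSize
  rw [div_lt_div_iff₀ (by norm_num) (by exact_mod_cast (by omega : 0 < 3 * D))]
  have : (3 * D : ℤ) < (D + x) * 4 := by omega
  have h2 : ((3 * D : ℤ) : ℚ) < (((D + x) * 4 : ℤ) : ℚ) := by exact_mod_cast this
  push_cast at h2 ⊢
  linarith

theorem devSize_le {D x : ℤ} (h : 4 * |x| < D) : devSize D x ≤ 1 := by
  have hD : 0 < D := lt_of_le_of_lt (by positivity) h
  have hx : x ≤ |x| := le_abs_self x
  unfold devSize
  rw [div_le_one (by exact_mod_cast (by omega : 0 < 3 * D))]
  exact_mod_cast (by omega : D + x ≤ 3 * D)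

theorem devSize_pos {D x : ℤ} (h : 4 * |x| < D) : 0 < devSize D x :=
  lt_trans (by norm_num) (devSize_gt h)

/-- Three items of sizes `(D + x_i) / (3 D)` fit into one bin only if `x_1 + x_2 + x_3 ≤ 0`. -/
theorem dev_sum_nonpos {α : Type*} (dev : α → ℤ) (D : ℤ) (hD : 0 < D) (T : List α)
    (h3 : T.length = 3) (hs : (T.map (fun a => devSize D (dev a))).sum ≤ 1) :
    (T.map dev).sum ≤ 0 := by
  match T, h3 with
  | [a, b, c], _ =>
    simp only [List.map_cons, List.map_nil, List.sum_cons, List.sum_nil, add_zero] at hs ⊢
    unfold devSize at hs
    have hD' : (0 : ℚ) < ((3 * D : ℤ) : ℚ) := by exact_mod_cast (by omega : 0 < 3 * D)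
    rw [← add_div, ← add_div, div_le_one hD'] at hs
    have h5 : (D + dev a) + ((D + dev b) + (D + dev c)) ≤ 3 * D := by exact_mod_cast hs
    omega

/-- **Frame lemma, deviation form.**  Items with integer deviations `dev a`, `4 |dev a| < D`,
and sizes `(D + dev a) / (3 D)`: a packing into `K` bins yields disjoint triples with
deviation sum at most `0` and `n ≤ 2 K + (number of triples)`. -/
theorem frame_dev {α : Type*} (dev : α → ℤ) (D : ℤ) (items : List α)
    (hD : ∀ a ∈ items, 4 * |dev a| < D) (K : ℕ)
    (hp : Packable (items.map (fun a => devSize D (dev a))) K) :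
    ∃ triples : List (List α),
      ((triples.flatten : List α) : Multiset α) ≤ (items : Multiset α) ∧
      (∀ T ∈ triples, T.length = 3) ∧ (∀ T ∈ triples, (T.map dev).sum ≤ 0) ∧
      items.length ≤ 2 * K + triples.length := by
  obtain ⟨triples, h1, h2, h3, h4⟩ :=
    frame (fun a => devSize D (dev a)) items (fun a ha => devSize_gt (hD a ha)) K hp
  refine ⟨triples, h1, h2, ?_, h4⟩
  intro T hT
  have h3T := h2 T hT
  have hne : T ≠ [] := by
    intro h0
    rw [h0] at h3T
    simp at h3T
  obtain ⟨a, haT⟩ := List.exists_mem_of_ne_nil T hne
  have haI : a ∈ items := by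
    have hsub : ((triples.flatten : List α) : Multiset α) ⊆ (items : Multiset α) :=
      Multiset.subset_of_le h1
    exact hsub (by
      show a ∈ ((triples.flatten : List α) : Multiset α)
      exact Multiset.mem_coe.mpr (List.mem_flatten.mpr ⟨T, hT, haT⟩))
  have hDpos : 0 < D := lt_of_le_of_lt (by positivity) (hD a haI)
  exact dev_sum_nonpos dev D hDpos T h3T (h3 T hT)

/-- Deviation form of the lower bound on the optimum: if every family of disjoint triples with
deviation sum at most `0` leaves at least `u` items uncovered and `6 K < 2 n + u`, then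
`K < OPT`. -/
theorem lt_OPT_dev {α : Type*} (dev : α → ℤ) (D : ℤ) (items : List α)
    (hD : ∀ a ∈ items, 4 * |dev a| < D) (u : ℕ)
    (hT : ∀ triples : List (List α),
      ((triples.flatten : List α) : Multiset α) ≤ (items : Multiset α) →
      (∀ T ∈ triples, T.length = 3) → (∀ T ∈ triples, (T.map dev).sum ≤ 0) →
      3 * triples.length + u ≤ items.length)
    (K : ℕ) (hK : 6 * K < 2 * items.length + u) :
    K < OPT (items.map (fun a => devSize D (dev a))) := by
  have hne : Packable (items.map (fun a => devSize D (dev a)))
      (items.map (fun a => devSize D (dev a))).length :=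
    packable_singletons _ (by
      intro v hv
      obtain ⟨a, ha, rfl⟩ := List.mem_map.mp hv
      exact devSize_le (hD a ha))
  have hmem : Packable (items.map (fun a => devSize D (dev a)))
      (OPT (items.map (fun a => devSize D (dev a)))) :=
    Nat.sInf_mem (s := {k : ℕ | Packable (items.map (fun a => devSize D (dev a))) k}) ⟨_, hne⟩
  by_contra hcon
  rw [not_lt] at hcon
  obtain ⟨triples, h1, h2, h3, h4⟩ := frame_dev dev D items hD K (hmem.mono hcon)
  have h5 := hT triples h1 h2 h3
  omega

end Vale.Agent.H15.BP
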