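import Vale.Agent.H15.BP.LPCert

/-!
Assembly of a gap statement from a triple bound and an LP bound (support for P302)
-/

namespace Vale.Agent.H15.BP

open Vale.Agent.H50.BinPack

/-- **Assembly.**  Items with integer deviations `dev a` (`4 |dev a| < D`), sizes
`(D + dev a) / (3 D)`.  If every family of disjoint triples with deviation sum at most `0`
leaves at least `u` items uncovered, `6 K < 2 n + u`, and the configuration LP value is at
most `v`, then the instance has all sizes in `(0, 1]` and `OPT - LP ≥ K + 1 - v`. -/
theorem gap_of_cert {α : Type*} (dev : α → ℤ) (D : ℤ) (items : List α)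
    (hD : ∀ a ∈ items, 4 * |dev a| < D) (u : ℕ)
    (hT : ∀ triples : List (List α),
      ((triples.flatten : List α) : Multiset α) ≤ (items : Multiset α) →
      (∀ T ∈ triples, T.length = 3) → (∀ T ∈ triples, (T.map dev).sum ≤ 0) →
      3 * triples.length + u ≤ items.length)
    (K : ℕ) (hK : 6 * K < 2 * items.length + u) (v : ℝ)
    (hLP : LP (items.map (fun a => devSize D (dev a))) ≤ v) :
    (∀ s ∈ items.map (fun a => devSize D (dev a)), 0 < s ∧ s ≤ 1) ∧
      (K : ℝ) + 1 - v ≤
        (OPT (items.map (fun a => devSize D (dev a))) : ℝ) -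
          LP (items.map (fun a => devSize D (dev a))) := by
  constructor
  · intro s hs
    obtain ⟨a, ha, rfl⟩ := List.mem_map.mp hs
    exact ⟨devSize_pos (hD a ha), devSize_le (hD a ha)⟩
  · have h1 : K < OPT (items.map (fun a => devSize D (dev a))) :=
      lt_OPT_dev dev D items hD u hT K hK
    have h2 : ((K + 1 : ℕ) : ℝ) ≤ (OPT (items.map (fun a => devSize D (dev a))) : ℝ) :=
      Nat.cast_le.mpr h1
    push_cast at h2
    linarith

/-- The same with the deviations listed explicitly: `xs = items.map dev`. -/
theorem gap_of_cert_list {α : Type*} (dev : α → ℤ) (D : ℤ) (items : List α) (xs : List ℤ)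
    (hxs : items.map dev = xs) (hD : ∀ x ∈ xs, 4 * |x| < D) (u : ℕ)
    (hT : ∀ triples : List (List α),
      ((triples.flatten : List α) : Multiset α) ≤ (items : Multiset α) →
      (∀ T ∈ triples, T.length = 3) → (∀ T ∈ triples, (T.map dev).sum ≤ 0) →
      3 * triples.length + u ≤ items.length)
    (K : ℕ) (hK : 6 * K < 2 * xs.length + u) (v : ℝ)
    (hLP : LP (xs.map (devSize D)) ≤ v) :
    (∀ s ∈ xs.map (devSize D), 0 < s ∧ s ≤ 1) ∧
      (K : ℝ) + 1 - v ≤ (OPT (xs.map (devSize D)) : ℝ) - LP (xs.map (devSize D)) := by
  have e : xs.map (devSize D) = items.map (fun a => devSize D (dev a)) := by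
    rw [← hxs, List.map_map]
    rfl
  have hlen : xs.length = items.length := by rw [← hxs, List.length_map]
  rw [e]
  refine gap_of_cert dev D items ?_ u hT K (by rw [← hlen]; exact hK) v (by rw [← e]; exact hLP)
  intro a ha
  exact hD (dev a) (by rw [← hxs]; exact List.mem_map_of_mem ha)

/-- Boolean check of the size window for a whole list. -/
theorem devOk_all {D : ℤ} {xs : List ℤ} (h : xs.all (devOk D) = true) :
    ∀ x ∈ xs, 4 * |x| < D := by
  intro x hx
  exact devOk_spec (List.all_eq_true.mp h x hx)

/-- The lower bound on the optimum alone, with the deviations listed explicitly. -/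
theorem lt_OPT_list {α : Type*} (dev : α → ℤ) (D : ℤ) (items : List α) (xs : List ℤ)
    (hxs : items.map dev = xs) (hD : ∀ x ∈ xs, 4 * |x| < D) (u : ℕ)
    (hT : ∀ triples : List (List α),
      ((triples.flatten : List α) : Multiset α) ≤ (items : Multiset α) →
      (∀ T ∈ triples, T.length = 3) → (∀ T ∈ triples, (T.map dev).sum ≤ 0) →
      3 * triples.length + u ≤ items.length)
    (K : ℕ) (hK : 6 * K < 2 * xs.length + u) : K < OPT (xs.map (devSize D)) := by
  have e : xs.map (devSize D) = items.map (fun a => devSize D (dev a)) := by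
    rw [← hxs, List.map_map]
    rfl
  have hlen : xs.length = items.length := by rw [← hxs, List.length_map]
  rw [e]
  refine lt_OPT_dev dev D items ?_ u hT K (by rw [← hlen]; exact hK)
  intro a ha
  exact hD (dev a) (by rw [← hxs]; exact List.mem_map_of_mem ha)

end Vale.Agent.H15.BP
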