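import Vale.Agent.H15.BP.Frame

/-!
Upper bounds for the configuration LP from explicit integer data (support for P302)

Items are given by integer deviations `x` (size `devSize D x = (D + x) / (3 D)`, close to `1/3`).
A fractional solution is given by a list of patterns (lists of deviations: any list of at most
two items, or three items with deviation sum at most `0`) with weights `w / Q`, `w : ℕ`.
The cover condition is a statement about natural numbers, checked by a `Bool` function.
-/

namespace Vale.Agent.H15.BP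

open Vale.Agent.H50.BinPack

/-- The LP value is at most the total weight of any fractional solution. -/
theorem LP_le_total (I : List ℚ) (z : List (List ℚ × ℝ)) (hz : IsFracSol I z) :
    LP I ≤ (z.map Prod.snd).sum := by
  refine csInf_le ⟨0, ?_⟩ ⟨z, hz, rfl⟩
  rintro t ⟨z', hz', rfl⟩
  refine List.sum_nonneg ?_
  intro x hx
  obtain ⟨p, hp, rfl⟩ := List.mem_map.1 hx
  exact (hz'.1 p hp).2

theorem devSize_injective {D : ℤ} (hD : 0 < D) : Function.Injective (devSize D) := by
  intro x y h
  unfold devSize at h
  have h3 : ((3 * D : ℤ) : ℚ) ≠ 0 := by exact_mod_cast (by omega : (3 * D) ≠ 0)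
  rw [div_left_inj' h3] at h
  have h4 : D + x = D + y := by exact_mod_cast h
  omega

theorem devSize_le_half {D x : ℤ} (h : 4 * |x| < D) : devSize D x ≤ 1 / 2 := by
  have hD : 0 < D := lt_of_le_of_lt (by positivity) h
  have hx : x ≤ |x| := le_abs_self x
  unfold devSize
  rw [div_le_div_iff₀ (by exact_mod_cast (by omega : 0 < 3 * D)) (by norm_num)]
  have h1 : (D + x) * 2 ≤ 1 * (3 * D) := by omega
  exact_mod_cast h1

/-- A list of at most two items, or of three items with deviation sum at most `0`, fits into
one bin. -/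
theorem config_sum_le {D : ℤ} (c : List ℤ) (hD : ∀ x ∈ c, 4 * |x| < D)
    (h : c.length ≤ 2 ∨ (c.length = 3 ∧ c.sum ≤ 0)) : (c.map (devSize D)).sum ≤ 1 := by
  match c, hD, h with
  | [], _, _ => simp
  | [a], hD, _ =>
    have := devSize_le_half (hD a (by simp))
    simp only [List.map_cons, List.map_nil, List.sum_cons, List.sum_nil, add_zero]
    linarith
  | [a, b], hD, _ =>
    have h1 := devSize_le_half (hD a (by simp))
    have h2 := devSize_le_half (hD b (by simp))
    simp only [List.map_cons, List.map_nil, List.sum_cons, List.sum_nil, add_zero]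
    linarith
  | [a, b, c], hD, h =>
    have hs : a + (b + c) ≤ 0 := by
      rcases h with h | h
      · simp at h
      · simpa using h.2
    have hDpos : 0 < D := lt_of_le_of_lt (by positivity) (hD a (by simp))
    simp only [List.map_cons, List.map_nil, List.sum_cons, List.sum_nil, add_zero]
    unfold devSize
    have hD' : (0 : ℚ) < ((3 * D : ℤ) : ℚ) := by exact_mod_cast (by omega : 0 < 3 * D)
    rw [← add_div, ← add_div, div_le_one hD']
    have h5 : (D + a) + ((D + b) + (D + c)) ≤ 3 * D := by omega
    exact_mod_cast h5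
  | a :: b :: c :: d :: l, _, h =>
    exfalso
    rcases h with h | h
    · simp at h
    · simp at h

theorem cover_sum (D : ℤ) (hD : 0 < D) (Q : ℕ) (x : ℤ) : ∀ cfgs : List (List ℤ × ℕ),
    ((cfgs.map (fun p => (p.1.map (devSize D), (p.2 : ℝ) / Q))).map
        (fun p => p.2 * ((p.1.count (devSize D x) : ℕ) : ℝ))).sum =
      (((cfgs.map (fun p => p.2 * p.1.count x)).sum : ℕ) : ℝ) / Q := by
  intro cfgs
  induction cfgs with
  | nil => simp
  | cons p cfgs ih =>
    simp only [List.map_cons, List.sum_cons, Nat.cast_add, Nat.cast_mul]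
    rw [ih, List.count_map_of_injective _ _ (devSize_injective hD)]
    ring

theorem total_sum (D : ℤ) (Q : ℕ) : ∀ cfgs : List (List ℤ × ℕ),
    ((cfgs.map (fun p => (p.1.map (devSize D), (p.2 : ℝ) / Q))).map Prod.snd).sum =
      (((cfgs.map (fun p => p.2)).sum : ℕ) : ℝ) / Q := by
  intro cfgs
  induction cfgs with
  | nil => simp
  | cons p cfgs ih =>
    simp only [List.map_cons, List.sum_cons, Nat.cast_add]
    rw [ih]
    ring

/-- **LP certificate, deviation form.**  Patterns with weights `w / Q` covering every item at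
least `Q * (multiplicity)` times in total give `LP ≤ (sum of the w) / Q`. -/
theorem LP_le_dev (D : ℤ) (hDpos : 0 < D) (items : List ℤ) (hD : ∀ x ∈ items, 4 * |x| < D)
    (Q : ℕ) (hQ : 0 < Q) (cfgs : List (List ℤ × ℕ))
    (hc : ∀ p ∈ cfgs, (∀ x ∈ p.1, x ∈ items) ∧
      (p.1.length ≤ 2 ∨ (p.1.length = 3 ∧ p.1.sum ≤ 0)))
    (hcov : ∀ x ∈ items, Q * items.count x ≤ (cfgs.map (fun p => p.2 * p.1.count x)).sum) :
    LP (items.map (devSize D)) ≤ (((cfgs.map (fun p => p.2)).sum : ℕ) : ℝ) / Q := by
  have hQ' : (0 : ℝ) < Q := by exact_mod_cast hQ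
  have hz : IsFracSol (items.map (devSize D))
      (cfgs.map (fun p => (p.1.map (devSize D), (p.2 : ℝ) / Q))) := by
    constructor
    · intro q hq
      obtain ⟨p, hp, rfl⟩ := List.mem_map.1 hq
      obtain ⟨h1, h2⟩ := hc p hp
      refine ⟨⟨?_, ?_⟩, by positivity⟩
      · intro s hs
        obtain ⟨x, hx, rfl⟩ := List.mem_map.1 hs
        exact List.mem_map_of_mem (h1 x hx)
      · exact config_sum_le p.1 (fun x hx => hD x (h1 x hx)) h2
    · intro s hs
      obtain ⟨x, hx, rfl⟩ := List.mem_map.1 hs
      rw [cover_sum D hDpos Q x cfgs, List.count_map_of_injective _ _ (devSize_injective hDpos),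
        le_div_iff₀ hQ']
      have h := hcov x hx
      have h' : ((Q * items.count x : ℕ) : ℝ) ≤
          (((cfgs.map (fun p => p.2 * p.1.count x)).sum : ℕ) : ℝ) := Nat.cast_le.mpr h
      rw [Nat.cast_mul] at h'
      linarith
  have h := LP_le_total _ _ hz
  rw [total_sum D Q cfgs] at h
  exact h

/-- Boolean check of one pattern. -/
def cfgOk (items : List ℤ) (p : List ℤ × ℕ) : Bool :=
  p.1.all (fun x => items.contains x) &&
    (decide (p.1.length ≤ 2) || (decide (p.1.length = 3) && decide (p.1.sum ≤ 0)))

/-- Boolean check of the cover condition of one item. -/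
def covOk (items : List ℤ) (Q : ℕ) (cfgs : List (List ℤ × ℕ)) (x : ℤ) : Bool :=
  decide (Q * items.count x ≤ (cfgs.map (fun p => p.2 * p.1.count x)).sum)

/-- Boolean check of the size window `4 |x| < D`. -/
def devOk (D : ℤ) (x : ℤ) : Bool := decide (-D < 4 * x) && decide (4 * x < D)

/-- Boolean check of a whole LP certificate. -/
def lpCheck (D : ℤ) (items : List ℤ) (Q : ℕ) (cfgs : List (List ℤ × ℕ)) : Bool :=
  decide (0 < D) && decide (0 < Q) && items.all (devOk D) && cfgs.all (cfgOk items) &&
    items.all (covOk items Q cfgs)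

theorem devOk_spec {D x : ℤ} (h : devOk D x = true) : 4 * |x| < D := by
  unfold devOk at h
  simp only [Bool.and_eq_true, decide_eq_true_eq] at h
  have h1 : |4 * x| < D := abs_lt.mpr ⟨h.1, h.2⟩
  rw [abs_mul] at h1
  simpa using h1

/-- **LP certificate, checked form.** -/
theorem LP_le_of_check (D : ℤ) (items : List ℤ) (Q : ℕ) (cfgs : List (List ℤ × ℕ))
    (h : lpCheck D items Q cfgs = true) :
    LP (items.map (devSize D)) ≤ (((cfgs.map (fun p => p.2)).sum : ℕ) : ℝ) / Q := by
  unfold lpCheck at h
  simp only [Bool.and_eq_true, decide_eq_true_eq, List.all_eq_true] at h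
  obtain ⟨⟨⟨⟨hD, hQ⟩, hdev⟩, hcfg⟩, hcov⟩ := h
  refine LP_le_dev D hD items (fun x hx => devOk_spec (hdev x hx)) Q hQ cfgs ?_ ?_
  · intro p hp
    have h1 := hcfg p hp
    unfold cfgOk at h1
    simp only [Bool.and_eq_true, Bool.or_eq_true, decide_eq_true_eq, List.all_eq_true,
      List.contains_iff_mem] at h1
    exact ⟨h1.1, h1.2⟩
  · intro x hx
    have h1 := hcov x hx
    unfold covOk at h1
    simpa using h1

end Vale.Agent.H15.BP
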