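import Vale.Agent.H15.BP.LPCert

/-!
Padding a bin packing instance with items of size `1` (support for P302)

Adding an item of size `1` raises the optimum by exactly `1` and the configuration LP value by
at most `1`.  Hence a gap `OPT - LP ≥ g` attained by one instance is attained by instances
with every larger value of `OPT`.
-/

namespace Vale.Agent.H15.BP

open Vale.Agent.H50.BinPack

theorem packable_cons_one {I : List ℚ} {k : ℕ} (h : Packable I k) : Packable (1 :: I) (k + 1) := by
  obtain ⟨bins, hlen, hperm, hsum⟩ := h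
  refine ⟨[1] :: bins, by simp [hlen], ?_, ?_⟩
  · simpa using hperm
  · intro b hb
    rcases List.mem_cons.mp hb with rfl | hb
    · simp
    · exact hsum b hb

theorem sum_pos_of_pos : ∀ l : List ℚ, (∀ a ∈ l, 0 < a) → l ≠ [] → 0 < l.sum := by
  intro l
  induction l with
  | nil => intro _ h; exact absurd rfl h
  | cons a l ih =>
    intro h _
    have ha := h a (by simp)
    by_cases hl : l = []
    · subst hl; simpa using ha
    · have := ih (fun x hx => h x (by simp [hx])) hl
      simp only [List.sum_cons]
      linarith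

theorem packable_of_cons_one {I : List ℚ} (hI : ∀ a ∈ I, 0 < a) {k : ℕ}
    (h : Packable (1 :: I) k) : ∃ k', k = k' + 1 ∧ Packable I k' := by
  obtain ⟨bins, hlen, hperm, hsum⟩ := h
  have h1 : (1 : ℚ) ∈ bins.flatten := hperm.symm.subset (by simp)
  obtain ⟨b, hb, h1b⟩ := List.mem_flatten.mp h1
  obtain ⟨l1, l2, rfl⟩ := List.append_of_mem hb
  have hpos : ∀ a ∈ b, 0 < a := by
    intro a ha
    have : a ∈ (l1 ++ b :: l2).flatten := List.mem_flatten.mpr ⟨b, hb, ha⟩
    have h2 := hperm.subset this
    rcases List.mem_cons.mp h2 with rfl | h2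
    · norm_num
    · exact hI a h2
  have hb1 : b = [1] := by
    have hp : b.Perm (1 :: b.erase 1) := List.perm_cons_erase h1b
    have hs : b.sum = 1 + (b.erase 1).sum := by rw [hp.sum_eq]; simp
    have hle := hsum b hb
    have he : b.erase 1 = [] := by
      by_contra hne
      have := sum_pos_of_pos (b.erase 1)
        (fun a ha => hpos a ((List.erase_subset) ha)) hne
      linarith
    rw [he] at hp
    exact List.perm_singleton.mp hp
  subst hb1
  refine ⟨(l1 ++ l2).length, ?_, l1 ++ l2, rfl, ?_, ?_⟩
  · rw [← hlen]; simp; omega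
  · have h3 : (l1 ++ [1] :: l2).flatten.Perm (1 :: (l1 ++ l2).flatten) := by
      simp only [List.flatten_append, List.flatten_cons, List.singleton_append]
      exact List.perm_middle
    exact (h3.symm.trans hperm).cons_inv
  · intro b' hb'
    apply hsum
    rcases List.mem_append.mp hb' with h | h
    · exact List.mem_append_left _ h
    · exact List.mem_append_right _ (List.mem_cons_of_mem _ h)

/-- Adding an item of size `1` raises the optimum by exactly `1`. -/
theorem OPT_cons_one (I : List ℚ) (hI : ∀ a ∈ I, 0 < a ∧ a ≤ 1) : OPT (1 :: I) = OPT I + 1 := by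
  have hne : Packable I I.length := packable_singletons I (fun a ha => (hI a ha).2)
  have hmem : Packable I (OPT I) := Nat.sInf_mem (s := {k : ℕ | Packable I k}) ⟨_, hne⟩
  have h1 : Packable (1 :: I) (OPT I + 1) := packable_cons_one hmem
  have hmem' : Packable (1 :: I) (OPT (1 :: I)) :=
    Nat.sInf_mem (s := {k : ℕ | Packable (1 :: I) k}) ⟨_, h1⟩
  obtain ⟨k', hk', hp'⟩ := packable_of_cons_one (fun a ha => (hI a ha).1) hmem'
  have h2 : OPT I ≤ k' := OPT_le hp'
  have h3 : OPT (1 :: I) ≤ OPT I + 1 := OPT_le h1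
  omega

/-- Adding an item of size `1` raises the LP value by at most `1`. -/
theorem LP_cons_one_le (I : List ℚ) (hI : ∀ a ∈ I, a ≤ 1) : LP (1 :: I) ≤ LP I + 1 := by
  have key : ∀ t ∈ {t : ℝ | ∃ z : List (List ℚ × ℝ), IsFracSol I z ∧ (z.map Prod.snd).sum = t},
      LP (1 :: I) - 1 ≤ t := by
    rintro t ⟨z, hz, rfl⟩
    have hz' : IsFracSol (1 :: I) (([1], (1 : ℝ)) :: z) := by
      constructor
      · intro p hp
        rcases List.mem_cons.mp hp with rfl | hp
        · exact ⟨⟨by simp, by simp⟩, by norm_num⟩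
        · obtain ⟨⟨h1, h2⟩, h3⟩ := hz.1 p hp
          exact ⟨⟨fun s hs => List.mem_cons_of_mem _ (h1 s hs), h2⟩, h3⟩
      · intro s hs
        have hnn : 0 ≤ (z.map (fun p => p.2 * ((p.1.count s : ℕ) : ℝ))).sum := by
          refine List.sum_nonneg ?_
          intro x hx
          obtain ⟨p, hp, rfl⟩ := List.mem_map.1 hx
          exact mul_nonneg (hz.1 p hp).2 (Nat.cast_nonneg _)
        have hcov : ((I.count s : ℕ) : ℝ) ≤
            (z.map (fun p => p.2 * ((p.1.count s : ℕ) : ℝ))).sum := by
          by_cases hsI : s ∈ I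
          · exact hz.2 s hsI
          · rw [List.count_eq_zero_of_not_mem hsI]
            simpa using hnn
        simp only [List.map_cons, List.sum_cons, List.count_cons, List.count_nil]
        by_cases h1 : (1 : ℚ) = s
        · subst h1
          simp only [beq_self_eq_true, if_true, Nat.cast_add, Nat.cast_one]
          linarith
        · have h1' : ((1 : ℚ) == s) = false := by simpa using h1
          simp only [h1', Bool.false_eq_true, if_false, Nat.cast_zero, mul_zero, zero_add,
            add_zero]
          exact hcov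
    have := LP_le_total _ _ hz'
    simp only [List.map_cons, List.sum_cons] at this
    linarith
  have := le_csInf (LP_set_nonempty I hI) key
  have e : LP I = sInf {t : ℝ | ∃ z : List (List ℚ × ℝ), IsFracSol I z ∧
      (z.map Prod.snd).sum = t} := rfl
  linarith

/-- Padding with `j` items of size `1`. -/
theorem pad_spec (I : List ℚ) (hI : ∀ a ∈ I, 0 < a ∧ a ≤ 1) : ∀ j : ℕ,
    (∀ a ∈ List.replicate j (1 : ℚ) ++ I, 0 < a ∧ a ≤ 1) ∧
      OPT (List.replicate j (1 : ℚ) ++ I) = OPT I + j ∧
      LP (List.replicate j (1 : ℚ) ++ I) ≤ LP I + j := by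
  intro j
  induction j with
  | zero => simpa using hI
  | succ j ih =>
    obtain ⟨h1, h2, h3⟩ := ih
    have e : List.replicate (j + 1) (1 : ℚ) ++ I = 1 :: (List.replicate j (1 : ℚ) ++ I) := by
      simp [List.replicate_succ]
    rw [e]
    refine ⟨?_, ?_, ?_⟩
    · intro a ha
      rcases List.mem_cons.mp ha with rfl | ha
      · norm_num
      · exact h1 a ha
    · rw [OPT_cons_one _ h1, h2]; omega
    · have := LP_cons_one_le _ (fun a ha => (h1 a ha).2)
      push_cast
      linarith

/-- **Every larger optimum.**  If an instance with sizes in `(0, 1]` has `OPT - LP ≥ g`, then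
for every `m ≥ OPT` there is an instance with sizes in `(0, 1]`, optimum exactly `m` and
`OPT - LP ≥ g`. -/
theorem gap_all_larger (I : List ℚ) (hI : ∀ a ∈ I, 0 < a ∧ a ≤ 1) (g : ℝ)
    (hg : g ≤ (OPT I : ℝ) - LP I) (m : ℕ) (hm : OPT I ≤ m) :
    ∃ J : List ℚ, (∀ a ∈ J, 0 < a ∧ a ≤ 1) ∧ OPT J = m ∧ g ≤ (OPT J : ℝ) - LP J := by
  obtain ⟨h1, h2, h3⟩ := pad_spec I hI (m - OPT I)
  refine ⟨List.replicate (m - OPT I) (1 : ℚ) ++ I, h1, by rw [h2]; omega, ?_⟩
  rw [h2]
  push_cast
  linarith

/-- An explicit packing in deviation form: bins are lists of deviations, each of at most two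
items or of three items with deviation sum at most `0`. -/
theorem packable_dev (D : ℤ) (xs : List ℤ) (hD : ∀ x ∈ xs, 4 * |x| < D)
    (binsDev : List (List ℤ)) (hperm : binsDev.flatten.Perm xs)
    (hfit : ∀ b ∈ binsDev, b.length ≤ 2 ∨ (b.length = 3 ∧ b.sum ≤ 0)) :
    Packable (xs.map (devSize D)) binsDev.length := by
  refine ⟨binsDev.map (List.map (devSize D)), by simp, ?_, ?_⟩
  · rw [← List.map_flatten]
    exact hperm.map _
  · intro b hb
    obtain ⟨b', hb', rfl⟩ := List.mem_map.mp hb
    refine config_sum_le b' ?_ (hfit b' hb')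
    intro x hx
    exact hD x (hperm.subset (List.mem_flatten.mpr ⟨b', hb', hx⟩))

/-- Boolean check of the shape of the bins of an explicit packing. -/
def binsOk (binsDev : List (List ℤ)) : Bool :=
  binsDev.all (fun b => decide (b.length ≤ 2) || (decide (b.length = 3) && decide (b.sum ≤ 0)))

theorem binsOk_spec {binsDev : List (List ℤ)} (h : binsOk binsDev = true) :
    ∀ b ∈ binsDev, b.length ≤ 2 ∨ (b.length = 3 ∧ b.sum ≤ 0) := by
  intro b hb
  unfold binsOk at h
  have h1 := List.all_eq_true.mp h b hb
  simpa using h1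

end Vale.Agent.H15.BP
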